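import Mathlib.Geometry.Euclidean.Volume.Measure
import Mathlib.Analysis.Fourier.FourierTransform
import Mathlib.MeasureTheory.Function.LpSeminorm.Basic
import Mathlib.Analysis.Calculus.ContDiff.Defs

/-! # P122 / H499 / Defs : definitions for the statement (helper499) -/

open MeasureTheory Complex Set
open scoped ENNReal NNReal ContDiff FourierTransform

namespace Vale.Agent.P122.H499

/-- three-dimensional Euclidean space -/
abbrev R3 := EuclideanSpace ℝ (Fin 3)

/-- in the open neighbourhood `U` of `p` the set `M` is the zero set of the smooth function `F`, whose differential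
does not vanish on `M ∩ U` -/
structure LocalEquation (M : Set R3) (p : R3) (U : Set R3) (F : R3 → ℝ) : Prop where
  isOpen : IsOpen U
  mem : p ∈ U
  smooth : ContDiffOn ℝ ∞ F U
  zeroSet : M ∩ U = {x | x ∈ U ∧ F x = 0}
  regular : ∀ x ∈ M ∩ U, fderiv ℝ F x ≠ 0

/-- `M` is a smooth embedded surface -/
def IsSmoothSurface (M : Set R3) : Prop := ∀ p ∈ M, ∃ (U : Set R3) (F : R3 → ℝ), LocalEquation M p U F

/-- the second fundamental form at `p` of the surface `F = 0`, with respect to its unit normal `-∇F / |∇F|`,
at the tangent vector `v` -/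
noncomputable def secondForm (F : R3 → ℝ) (p v : R3) : ℝ := fderiv ℝ (fderiv ℝ F) p v v / ‖fderiv ℝ F p‖

/-- the second fundamental form of the surface `M` at its point `p` is definite; the tangent plane of `F = 0` at `p`
is the kernel of the differential of `F` -/
def DefiniteAt (M : Set R3) (p : R3) : Prop :=
  ∃ (U : Set R3) (F : R3 → ℝ), LocalEquation M p U F ∧
    ((∀ v : R3, v ≠ 0 → fderiv ℝ F p v = 0 → 0 < secondForm F p v) ∨
      (∀ v : R3, v ≠ 0 → fderiv ℝ F p v = 0 → secondForm F p v < 0))

/-- `S` is a compact positively curved piece of a smooth embedded surface -/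
def PositivelyCurvedPiece (S : Set R3) : Prop :=
  IsCompact S ∧ ∃ M : Set R3, IsSmoothSurface M ∧ S ⊆ M ∧ ∀ p ∈ S, DefiniteAt M p

/-- the surface measure of `S`: Mathlib's two-dimensional Euclidean Hausdorff measure (normalised to agree with the
Lebesgue measure of planes) on `S` -/
noncomputable def area (S : Set R3) : Measure R3 := (Measure.euclideanHausdorffMeasure 2 : Measure R3).restrict S

/-- the Fourier extension operator of `S` -/
noncomputable def E (S : Set R3) (f : R3 → ℂ) (x : R3) : ℂ :=
  ∫ ξ, f ξ * cexp (2 * Real.pi * I * (inner ℝ x ξ : ℝ)) ∂(area S)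

/-- the extension operator of `S` is bounded from `L^q(S)` to `L^p(ℝ³)` -/
def ExtensionEstimate (S : Set R3) (q p : ℝ≥0∞) : Prop :=
  ∃ C : ℝ≥0, ∀ f : R3 → ℂ, MemLp f q (area S) → eLpNorm (E S f) p volume ≤ C * eLpNorm f q (area S)

/-- the restriction to `S` of the Fourier transform is bounded from `L^r(ℝ³)` to `L^s(S)` (on the dense subspace
`L^1 ∩ L^r`, where the Fourier transform is a continuous function) -/
def RestrictionEstimate (S : Set R3) (r s : ℝ≥0∞) : Prop :=
  ∃ C : ℝ≥0, ∀ g : R3 → ℂ, Integrable g → MemLp g r volume → eLpNorm (𝓕 g) s (area S) ≤ C * eLpNorm g r volume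

end Vale.Agent.P122.H499
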