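import Vale.Agent.P122.H499.Interp
import Mathlib.MeasureTheory.Integral.Prod
import Mathlib.Data.Real.ConjExponents
import Mathlib.Analysis.Normed.Module.RCLike.Real

/-! # P122 / H499 / Dual : general exponents and the dual operator (helper499) -/

set_option autoImplicit false

open MeasureTheory Filter Topology Set
open scoped ENNReal NNReal ComplexConjugate

namespace Vale.Agent.P122.H499

variable {X Y : Type*} [MeasurableSpace X] [MeasurableSpace Y] {ν : Measure X} {μ : Measure Y} {k : X → Y → ℂ}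

/-- comparison of norms on a finite measure space -/
theorem incl [IsFiniteMeasure ν] {p q : ℝ≥0∞} (hp : 1 ≤ p) (hpq : p ≤ q) :
    ∃ C : ℝ≥0, ∀ f : X → ℂ, AEStronglyMeasurable f ν → eLpNorm f p ν ≤ C * eLpNorm f q ν := by
  have he : 0 ≤ 1 / p.toReal - 1 / q.toReal := by
    rcases eq_or_ne q ∞ with rfl | hq
    · simp
    · have h1 : p ≠ ∞ := ne_top_of_le_ne_top hq hpq
      have h2 : 0 < p.toReal := ENNReal.toReal_pos (by rintro rfl; simp at hp) h1
      have h3 : p.toReal ≤ q.toReal := ENNReal.toReal_mono hq hpq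
      exact sub_nonneg.2 (one_div_le_one_div_of_le h2 h3)
  have ht : (ν univ) ^ (1 / p.toReal - 1 / q.toReal) ≠ ∞ := ENNReal.rpow_ne_top_of_nonneg he (measure_ne_top _ _)
  refine ⟨((ν univ) ^ (1 / p.toReal - 1 / q.toReal)).toNNReal, fun f hf => ?_⟩
  rw [ENNReal.coe_toNNReal ht, mul_comm]
  exact eLpNorm_le_eLpNorm_mul_rpow_measure_univ hpq hf

/-- **off-diagonal estimate** -/
theorem offdiag [IsFiniteMeasure ν] (h : Ker ν μ k)
    (hD : ∀ p : ℝ≥0∞, 3 < p → ∃ C : ℝ≥0, ∀ f, MemLp f p ν → eLpNorm (T ν k f) p μ ≤ C * eLpNorm f p ν)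
    {p q : ℝ≥0∞} (hp : 3 < p) (hpq : 2 / p + 1 / q < 1) :
    ∃ C : ℝ≥0, ∀ f, MemLp f q ν → eLpNorm (T ν k f) p μ ≤ C * eLpNorm f q ν := by
  have hq1 : 1 ≤ q := by
    have h1 : 1 / q < 1 := lt_of_le_of_lt le_add_self hpq
    by_contra hc
    push Not at hc
    have : 1 ≤ 1 / q := by
      rw [one_div, ENNReal.one_le_inv]
      exact hc.le
    exact absurd h1 (not_lt.2 this)
  have hp1 : 1 ≤ p := by
    refine le_trans ?_ hp.le
    norm_num
  rcases le_total p q with hle | hle
  · obtain ⟨C, hC⟩ := hD p hp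
    obtain ⟨C', hC'⟩ := incl (ν := ν) hp1 hle
    refine ⟨C * C', fun f hf => ?_⟩
    refine (hC f (hf.mono_exponent hle)).trans ?_
    rw [ENNReal.coe_mul, mul_assoc]
    gcongr
    exact hC' f hf.1
  rcases eq_or_ne p ∞ with rfl | hpt
  · obtain ⟨C, hC⟩ := incl (ν := ν) le_rfl hq1
    refine ⟨C, fun f hf => le_trans ?_ (hC f hf.1)⟩
    rw [eLpNorm_exponent_top, eLpNorm_one_eq_lintegral_enorm]
    exact essSup_le_of_ae_le _ (Eventually.of_forall fun y => T_enorm_le h f y)
  have hqt : q ≠ ∞ := ne_top_of_le_ne_top hpt hle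
  set P := p.toReal with hP
  set Q := q.toReal with hQ
  have hpP : p = ENNReal.ofReal P := (ENNReal.ofReal_toReal hpt).symm
  have hqQ : q = ENNReal.ofReal Q := (ENNReal.ofReal_toReal hqt).symm
  have hP3 : 3 < P := by
    have := (ENNReal.toReal_lt_toReal (by norm_num) hpt).2 hp
    simpa using this
  have hQ1 : 1 ≤ Q := by
    have := ENNReal.toReal_mono hqt hq1
    simpa using this
  have hP0 : 0 < P := by linarith
  have hQ0 : 0 < Q := by linarith
  have hPQ : 2 / P + 1 / Q < 1 := by
    have h2 := (ENNReal.toReal_lt_toReal (ne_top_of_lt hpq) ENNReal.one_ne_top).2 hpq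
    rw [ENNReal.toReal_add (ne_top_of_lt (lt_of_le_of_lt le_self_add hpq)) (ne_top_of_lt (lt_of_le_of_lt le_add_self hpq)),
      ENNReal.toReal_div, ENNReal.toReal_div] at h2
    simpa using h2
  have hg : 1 < Q * (1 - 2 / P) := by
    have h1 : 1 / Q < 1 - 2 / P := by linarith
    rw [div_lt_iff₀ hQ0] at h1
    linarith
  set e := min ((P - 3) / 2) (P * (Q * (1 - 2 / P) - 1) / (2 * Q)) with he
  have he0 : 0 < e := by
    refine lt_min (by linarith) ?_
    have : 0 < Q * (1 - 2 / P) - 1 := by linarith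
    positivity
  have he1 : e ≤ (P - 3) / 2 := min_le_left _ _
  have he2 : e ≤ P * (Q * (1 - 2 / P) - 1) / (2 * Q) := min_le_right _ _
  set p0 := 3 + e with hp0
  obtain ⟨C0, hC0⟩ := hD (ENNReal.ofReal p0) (by
    rw [show (3 : ℝ≥0∞) = ENNReal.ofReal 3 by norm_num]
    exact (ENNReal.ofReal_lt_ofReal_iff (by linarith)).2 (by linarith))
  have hfin : 1 < Q * (1 + 1 / P - p0 / P) := by
    have h1 : Q * e / P ≤ (Q * (1 - 2 / P) - 1) / 2 := by
      rw [div_le_iff₀ hP0]
      have := mul_le_mul_of_nonneg_left he2 hQ0.le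
      calc Q * e ≤ Q * (P * (Q * (1 - 2 / P) - 1) / (2 * Q)) := this
        _ = (Q * (1 - 2 / P) - 1) / 2 * P := by field_simp
    have h2 : Q * (1 + 1 / P - p0 / P) = Q * (1 - 2 / P) - Q * e / P := by
      rw [hp0]; field_simp; ring
    rw [h2]
    linarith
  have := offdiag_real h (p0 := p0) (p := P) (q := Q) (by linarith) (by linarith) hQ1 hC0 hfin
  rwa [← hpP, ← hqQ] at this

/-- the adjoint operator -/
noncomputable def R (μ : Measure Y) (k : X → Y → ℂ) (g : Y → ℂ) (x : X) : ℂ := ∫ y, g y * conj (k x y) ∂μ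

theorem R_norm_le (hk : ∀ x y, ‖k x y‖ ≤ 1) {g : Y → ℂ} (hg : Integrable g μ) (x : X) : ‖R μ k g x‖ ≤ ∫ y, ‖g y‖ ∂μ := by
  refine (norm_integral_le_integral_norm _).trans (integral_mono_of_nonneg (Eventually.of_forall fun y => norm_nonneg _)
    hg.norm (Eventually.of_forall fun y => ?_))
  simp only [norm_mul, RCLike.norm_conj]
  exact mul_le_of_le_one_right (norm_nonneg _) (hk x y)

/-- **duality** -/
theorem dual [IsFiniteMeasure ν] [SFinite μ] (h : Ker ν μ k)
    (hkm : AEStronglyMeasurable (fun z : X × Y => k z.1 z.2) (ν.prod μ))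
    {p r : ℝ≥0∞} [hrp : ENNReal.HolderTriple r p 1] {s q : ℝ} (hsq : s.HolderConjugate q) {C : ℝ≥0}
    (hC : ∀ f, MemLp f (ENNReal.ofReal q) ν → eLpNorm (T ν k f) p μ ≤ C * eLpNorm f (ENNReal.ofReal q) ν)
    {g : Y → ℂ} (hg : Integrable g μ) (hgr : MemLp g r μ) (hR : AEStronglyMeasurable (R μ k g) ν) :
    eLpNorm (R μ k g) (ENNReal.ofReal s) ν ≤ C * eLpNorm g r μ := by
  have hs1 : 1 < s := hsq.lt
  have hs0 : 0 < s := by linarith
  have hq0 : 0 < q := hsq.symm.pos
  set H := R μ k g with hH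
  set M := ∫ y, ‖g y‖ ∂μ with hM
  have hM0 : 0 ≤ M := integral_nonneg fun _ => norm_nonneg _
  have hHM : ∀ x, ‖H x‖ ≤ M := fun x => R_norm_le h.le hg x
  set F : X → ℂ := fun x => H x * ((‖H x‖ ^ (s - 2) : ℝ) : ℂ) with hF
  have hFn : ∀ x, ‖F x‖ = ‖H x‖ ^ (s - 1) := by
    intro x
    simp only [hF, norm_mul, Complex.norm_real, Real.norm_eq_abs]
    rw [abs_of_nonneg (Real.rpow_nonneg (norm_nonneg _) _)]
    rcases eq_or_lt_of_le (norm_nonneg (H x)) with h0 | h0
    · rw [← h0, zero_mul, Real.zero_rpow (by linarith)]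
    · rw [show s - 1 = 1 + (s - 2) by ring, Real.rpow_add h0, Real.rpow_one]
  have hFm : AEStronglyMeasurable F ν := by
    refine hR.mul ?_
    exact (Complex.continuous_ofReal.measurable.comp_aemeasurable
      (hR.norm.aemeasurable.pow_const (s - 2))).aestronglyMeasurable
  have hFb : ∀ x, ‖F x‖ ≤ M ^ (s - 1) := fun x => by
    rw [hFn]
    exact Real.rpow_le_rpow (norm_nonneg _) (hHM x) (by linarith)
  have hFint : Integrable F ν := Integrable.of_bound hFm (M ^ (s - 1)) (Eventually.of_forall hFb)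
  have hFmem : MemLp F (ENNReal.ofReal q) ν := MemLp.of_bound hFm (M ^ (s - 1)) (Eventually.of_forall hFb)
  -- the pairing
  have hFc : Integrable (fun x => conj (F x)) ν := by
    refine Integrable.of_bound (Complex.continuous_conj.comp_aestronglyMeasurable hFm) (M ^ (s - 1))
      (Eventually.of_forall fun x => ?_)
    rw [RCLike.norm_conj]
    exact hFb x
  have hswap : ∫ x, H x * conj (F x) ∂ν = ∫ y, g y * conj (T ν k F y) ∂μ := by
    have h1 : Integrable (fun z : X × Y => (g z.2 * conj (F z.1)) * conj (k z.1 z.2)) (ν.prod μ) := by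
      have h2 : Integrable (fun z : X × Y => conj (F z.1) * g z.2) (ν.prod μ) := hFc.mul_prod hg
      have h3 : Integrable (fun z : X × Y => g z.2 * conj (F z.1)) (ν.prod μ) := by
        refine h2.congr (Eventually.of_forall fun z => ?_)
        simp only [mul_comm]
      refine h3.mul_bdd (c := 1) (Complex.continuous_conj.comp_aestronglyMeasurable hkm) (Eventually.of_forall fun z => ?_)
      rw [RCLike.norm_conj]
      exact h.le _ _
    calc ∫ x, H x * conj (F x) ∂ν = ∫ x, ∫ y, (g y * conj (F x)) * conj (k x y) ∂μ ∂ν := by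
          refine integral_congr_ae (Eventually.of_forall fun x => ?_)
          simp only [hH, R]
          rw [← integral_mul_const]
          refine integral_congr_ae (Eventually.of_forall fun y => ?_)
          simp only
          ring
      _ = ∫ y, ∫ x, (g y * conj (F x)) * conj (k x y) ∂ν ∂μ := integral_integral_swap h1
      _ = ∫ y, g y * conj (T ν k F y) ∂μ := by
          refine integral_congr_ae (Eventually.of_forall fun y => ?_)
          simp only [T]
          rw [← integral_conj, ← integral_const_mul]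
          refine integral_congr_ae (Eventually.of_forall fun x => ?_)
          simp only [map_mul]
          ring
  set I : ℝ≥0∞ := ∫⁻ x, ‖H x‖ₑ ^ s ∂ν with hI
  have hIe : ‖∫ x, H x * conj (F x) ∂ν‖ₑ = I := by
    have h1 : ∀ x, H x * conj (F x) = ((‖H x‖ ^ s : ℝ) : ℂ) := by
      intro x
      simp only [hF, map_mul, Complex.conj_ofReal]
      rw [← mul_assoc, Complex.mul_conj, Complex.normSq_eq_norm_sq, ← Complex.ofReal_mul]
      congr 1
      rcases eq_or_lt_of_le (norm_nonneg (H x)) with h0 | h0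
      · rw [← h0, Real.zero_rpow hs0.ne']
        simp
      · rw [← Real.rpow_natCast, ← Real.rpow_add h0]
        congr 1
        push_cast
        ring
    simp_rw [h1]
    rw [integral_complex_ofReal, ← ofReal_norm, Complex.norm_real, Real.norm_eq_abs, abs_of_nonneg
      (integral_nonneg fun x => Real.rpow_nonneg (norm_nonneg _) _),
      ofReal_integral_eq_lintegral_ofReal]
    · refine lintegral_congr fun x => ?_
      rw [← ENNReal.ofReal_rpow_of_nonneg (norm_nonneg _) hs0.le, ofReal_norm]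
    · refine Integrable.of_bound (hR.norm.aemeasurable.pow_const s).aestronglyMeasurable (M ^ s)
        (Eventually.of_forall fun x => ?_)
      rw [Real.norm_eq_abs, abs_of_nonneg (Real.rpow_nonneg (norm_nonneg _) _)]
      exact Real.rpow_le_rpow (norm_nonneg _) (hHM x) hs0.le
    · exact Eventually.of_forall fun x => Real.rpow_nonneg (norm_nonneg _) _
  have hTm : AEStronglyMeasurable (T ν k F) μ := h.out F hFint
  have hpair : I ≤ eLpNorm g r μ * eLpNorm (T ν k F) p μ := by
    rw [← hIe, hswap]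
    refine (enorm_integral_le_lintegral_enorm _).trans ?_
    have h1 := eLpNorm_smul_le_mul_eLpNorm (p := r) (q := p) (r := 1) (f := fun y => conj (T ν k F y)) (φ := g)
      (Complex.continuous_conj.comp_aestronglyMeasurable hTm) hgr.1
    rw [eLpNorm_one_eq_lintegral_enorm] at h1
    have h2 : eLpNorm (fun y => conj (T ν k F y)) p μ = eLpNorm (T ν k F) p μ := by
      refine eLpNorm_congr_norm_ae (Eventually.of_forall fun y => ?_)
      simp
    rw [h2] at h1
    simpa using h1
  have hFq : eLpNorm F (ENNReal.ofReal q) ν = I ^ (1 / q) := by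
    rw [eLpNorm_eq_lintegral_rpow_enorm_toReal (by simpa using hq0) ENNReal.ofReal_ne_top, ENNReal.toReal_ofReal hq0.le]
    congr 1
    refine lintegral_congr fun x => ?_
    rw [← ofReal_norm, hFn, ENNReal.ofReal_rpow_of_nonneg (Real.rpow_nonneg (norm_nonneg _) _) hq0.le,
      ← Real.rpow_mul (norm_nonneg _), ← ofReal_norm, ENNReal.ofReal_rpow_of_nonneg (norm_nonneg _) hs0.le,
      hsq.sub_one_mul_conj]
  have hIt : I ≠ ∞ := by
    refine ne_top_of_le_ne_top (b := ENNReal.ofReal M ^ s * ν univ)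
      (ENNReal.mul_ne_top (ENNReal.rpow_ne_top_of_nonneg hs0.le ENNReal.ofReal_ne_top) (measure_ne_top _ _)) ?_
    calc I ≤ ∫⁻ _, ENNReal.ofReal M ^ s ∂ν := by
          refine lintegral_mono fun x => ENNReal.rpow_le_rpow ?_ hs0.le
          rw [← ofReal_norm]
          exact ENNReal.ofReal_le_ofReal (hHM x)
      _ = _ := by rw [lintegral_const]
  have hmain : I ≤ C * eLpNorm g r μ * I ^ (1 / q) := by
    refine hpair.trans ?_
    calc eLpNorm g r μ * eLpNorm (T ν k F) p μ ≤ eLpNorm g r μ * (C * eLpNorm F (ENNReal.ofReal q) ν) := by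
          gcongr
          exact hC F hFmem
      _ = C * eLpNorm g r μ * I ^ (1 / q) := by rw [hFq]; ring
  have hres : I ^ (1 / s) ≤ C * eLpNorm g r μ := by
    by_cases h0 : I = 0
    · rw [h0, ENNReal.zero_rpow_of_pos (by positivity)]
      exact zero_le
    · have h1 : I = I ^ (1 / s) * I ^ (1 / q) := by
        rw [← ENNReal.rpow_add _ _ h0 hIt]
        have : 1 / s + 1 / q = 1 := by
          have := hsq.inv_add_inv_eq_one
          simpa [one_div] using this
        rw [this, ENNReal.rpow_one]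
      have h2 : I ^ (1 / q) ≠ 0 := (ENNReal.rpow_pos (pos_iff_ne_zero.2 h0) hIt).ne'
      have h3 : I ^ (1 / q) ≠ ∞ := ENNReal.rpow_ne_top_of_nonneg (by positivity) hIt
      rw [h1] at hmain
      rw [← h1] at hmain
      have h4 : I ^ (1 / s) * I ^ (1 / q) ≤ C * eLpNorm g r μ * I ^ (1 / q) := by
        rw [← h1]; exact hmain
      exact (ENNReal.mul_le_mul_iff_left h2 h3).1 h4
  rw [eLpNorm_eq_lintegral_rpow_enorm_toReal (by simpa using hs0) ENNReal.ofReal_ne_top, ENNReal.toReal_ofReal hs0.le]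
  exact hres

end Vale.Agent.P122.H499
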