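import Mathlib.MeasureTheory.Function.LpSpace.Complete
import Mathlib.MeasureTheory.Function.LpSeminorm.ChebyshevMarkov
import Mathlib.MeasureTheory.Function.LpSeminorm.CompareExp
import Mathlib.MeasureTheory.Integral.DominatedConvergence
import Mathlib.Analysis.SpecialFunctions.Pow.NNReal
import Mathlib.Analysis.SpecificLimits.Basic

/-! # P122 / H499 / Interp : interpolation by level sets (helper499)

A linear integral operator with bounded kernel on a finite measure space, bounded on `L^p0`, is bounded from `L^q` to `L^p`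
for all `p ≥ p0` and `1/q < 1 - (p0 - 1)/p`. -/

set_option autoImplicit false

open MeasureTheory Filter Topology Set
open scoped ENNReal NNReal

namespace Vale.Agent.P122.H499

variable {X Y : Type*} [MeasurableSpace X] [MeasurableSpace Y]

/-- the integral operator with kernel `k` -/
noncomputable def T (ν : Measure X) (k : X → Y → ℂ) (f : X → ℂ) (y : Y) : ℂ := ∫ x, f x * k x y ∂ν

/-- kernels bounded by one -/
structure Ker (ν : Measure X) (μ : Measure Y) (k : X → Y → ℂ) : Prop where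
  le : ∀ x y, ‖k x y‖ ≤ 1
  meas : ∀ y, AEStronglyMeasurable (fun x => k x y) ν
  out : ∀ f, Integrable f ν → AEStronglyMeasurable (T ν k f) μ

variable {ν : Measure X} {μ : Measure Y} {k : X → Y → ℂ}

theorem Ker.enorm_le (h : Ker ν μ k) (x : X) (y : Y) : ‖k x y‖ₑ ≤ 1 := by
  rw [← ofReal_norm_eq_enorm]
  exact (ENNReal.ofReal_le_ofReal (h.le x y)).trans (by simp)

theorem T_enorm_le (h : Ker ν μ k) (f : X → ℂ) (y : Y) : ‖T ν k f y‖ₑ ≤ ∫⁻ x, ‖f x‖ₑ ∂ν := by
  refine (enorm_integral_le_lintegral_enorm _).trans (lintegral_mono fun x => ?_)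
  rw [enorm_mul]
  exact mul_le_of_le_one_right' (h.enorm_le x y)

theorem Ker.int (h : Ker ν μ k) {f : X → ℂ} (hf : Integrable f ν) (y : Y) :
    Integrable (fun x => f x * k x y) ν :=
  hf.mul_bdd (h.meas y) (Eventually.of_forall fun x => h.le x y)

theorem T_add (h : Ker ν μ k) {f g : X → ℂ} (hf : Integrable f ν) (hg : Integrable g ν) :
    T ν k (f + g) = T ν k f + T ν k g := by
  funext y
  simp only [T, Pi.add_apply, add_mul]
  exact integral_add (h.int hf y) (h.int hg y)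

theorem T_congr {f g : X → ℂ} (hfg : f =ᵐ[ν] g) : T ν k f = T ν k g := by
  funext y
  refine integral_congr_ae ?_
  filter_upwards [hfg] with x hx
  rw [hx]

/-- norms of functions which are bounded and vanish outside a set -/
theorem eLpNorm_level {f : X → ℂ} {A : ℝ≥0∞} {S : Set X} (hSm : MeasurableSet S) (hA : ∀ x, ‖f x‖ₑ ≤ A)
    (hS : ∀ x, x ∉ S → f x = 0) {s : ℝ} (hs : 0 < s) :
    eLpNorm f (ENNReal.ofReal s) ν ≤ A * ν S ^ (1 / s) := by
  have hs0 : ENNReal.ofReal s ≠ 0 := by simpa using hs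
  rw [eLpNorm_eq_lintegral_rpow_enorm_toReal hs0 ENNReal.ofReal_ne_top, ENNReal.toReal_ofReal hs.le]
  have h1 : ∫⁻ x, ‖f x‖ₑ ^ s ∂ν ≤ A ^ s * ν S := by
    calc ∫⁻ x, ‖f x‖ₑ ^ s ∂ν ≤ ∫⁻ x, S.indicator (fun _ => A ^ s) x ∂ν := by
          refine lintegral_mono fun x => ?_
          by_cases hx : x ∈ S
          · rw [indicator_of_mem hx]
            exact ENNReal.rpow_le_rpow (hA x) hs.le
          · rw [indicator_of_notMem hx, hS x hx]
            simp [hs]
      _ = A ^ s * ν S := by rw [lintegral_indicator hSm, setLIntegral_const]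
  calc (∫⁻ x, ‖f x‖ₑ ^ s ∂ν) ^ (1 / s) ≤ (A ^ s * ν S) ^ (1 / s) := ENNReal.rpow_le_rpow h1 (by positivity)
    _ = A * ν S ^ (1 / s) := by
        rw [ENNReal.mul_rpow_of_nonneg _ _ (by positivity), ← ENNReal.rpow_mul, mul_one_div_cancel hs.ne', ENNReal.rpow_one]

/-- **one level set** -/
theorem level (h : Ker ν μ k) {p0 p : ℝ} (h0 : 1 ≤ p0) (hp : p0 ≤ p) {C0 : ℝ≥0}
    (hD : ∀ f, MemLp f (ENNReal.ofReal p0) ν → eLpNorm (T ν k f) (ENNReal.ofReal p0) μ ≤
      C0 * eLpNorm f (ENNReal.ofReal p0) ν)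
    {f : X → ℂ} (hf : AEStronglyMeasurable f ν) {A : ℝ≥0∞} (hAt : A ≠ ∞) (hA : ∀ x, ‖f x‖ₑ ≤ A) {S : Set X}
    (hSm : MeasurableSet S) (hSt : ν S ≠ ∞) (hS : ∀ x, x ∉ S → f x = 0) :
    eLpNorm (T ν k f) (ENNReal.ofReal p) μ ≤ (C0 : ℝ≥0∞) ^ (p0 / p) * (A * ν S ^ (1 + 1 / p - p0 / p)) := by
  have hp0 : 0 < p0 := by linarith
  have hpp : 0 < p := by linarith
  have hd : 0 ≤ p - p0 := by linarith
  set m := ν S with hm
  have hsup : ∀ y, ‖T ν k f y‖ₑ ≤ A * m := fun y => by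
    refine (T_enorm_le h f y).trans ?_
    have := eLpNorm_level (ν := ν) hSm hA hS one_pos
    rw [ENNReal.ofReal_one, eLpNorm_one_eq_lintegral_enorm, one_div_one, ENNReal.rpow_one] at this
    exact this
  have hf0 : eLpNorm f (ENNReal.ofReal p0) ν ≤ A * m ^ (1 / p0) := eLpNorm_level hSm hA hS hp0
  have hmem : MemLp f (ENNReal.ofReal p0) ν := ⟨hf, hf0.trans_lt (ENNReal.mul_lt_top hAt.lt_top
    (ENNReal.rpow_lt_top_of_nonneg (by positivity) hSt))⟩
  have hT0 : eLpNorm (T ν k f) (ENNReal.ofReal p0) μ ≤ C0 * (A * m ^ (1 / p0)) := (hD f hmem).trans (by gcongr)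
  have hp00 : ENNReal.ofReal p0 ≠ 0 := by simpa using hp0
  have hpp0 : ENNReal.ofReal p ≠ 0 := by simpa using hpp
  have hI0 : ∫⁻ y, ‖T ν k f y‖ₑ ^ p0 ∂μ ≤ (C0 * (A * m ^ (1 / p0))) ^ p0 := by
    rw [eLpNorm_eq_lintegral_rpow_enorm_toReal hp00 ENNReal.ofReal_ne_top, ENNReal.toReal_ofReal hp0.le] at hT0
    have := ENNReal.rpow_le_rpow hT0 hp0.le
    rwa [← ENNReal.rpow_mul, one_div_mul_cancel hp0.ne', ENNReal.rpow_one] at this
  have hAm : A * m ≠ ∞ := ENNReal.mul_ne_top hAt hSt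
  have hI : ∫⁻ y, ‖T ν k f y‖ₑ ^ p ∂μ ≤ (A * m) ^ (p - p0) * (C0 * (A * m ^ (1 / p0))) ^ p0 := by
    calc ∫⁻ y, ‖T ν k f y‖ₑ ^ p ∂μ ≤ ∫⁻ y, (A * m) ^ (p - p0) * ‖T ν k f y‖ₑ ^ p0 ∂μ := by
          refine lintegral_mono fun y => ?_
          calc ‖T ν k f y‖ₑ ^ p = ‖T ν k f y‖ₑ ^ ((p - p0) + p0) := by rw [sub_add_cancel]
            _ = ‖T ν k f y‖ₑ ^ (p - p0) * ‖T ν k f y‖ₑ ^ p0 := ENNReal.rpow_add_of_nonneg _ _ hd hp0.le
            _ ≤ (A * m) ^ (p - p0) * ‖T ν k f y‖ₑ ^ p0 := by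
                gcongr
                exact hsup y
      _ = (A * m) ^ (p - p0) * ∫⁻ y, ‖T ν k f y‖ₑ ^ p0 ∂μ :=
          lintegral_const_mul' _ _ (ENNReal.rpow_ne_top_of_nonneg hd hAm)
      _ ≤ _ := by gcongr
  rw [eLpNorm_eq_lintegral_rpow_enorm_toReal hpp0 ENNReal.ofReal_ne_top, ENNReal.toReal_ofReal hpp.le]
  refine (ENNReal.rpow_le_rpow hI (by positivity)).trans (le_of_eq ?_)
  have hq : 0 ≤ 1 / p := by positivity
  have e1 : 0 ≤ (p - p0) * (1 / p) := by positivity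
  have e2 : 0 ≤ p0 * (1 / p) := by positivity
  have e3 : 0 ≤ 1 / p0 * (p0 * (1 / p)) := by positivity
  rw [ENNReal.mul_rpow_of_nonneg _ _ hq, ← ENNReal.rpow_mul, ← ENNReal.rpow_mul,
    ENNReal.mul_rpow_of_nonneg _ _ e1, ENNReal.mul_rpow_of_nonneg _ _ e2, ENNReal.mul_rpow_of_nonneg _ _ e2,
    ← ENNReal.rpow_mul]
  have f1 : A ^ ((p - p0) * (1 / p)) * A ^ (p0 * (1 / p)) = A := by
    rw [← ENNReal.rpow_add_of_nonneg _ _ e1 e2]
    have : (p - p0) * (1 / p) + p0 * (1 / p) = 1 := by field_simp; ring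
    rw [this, ENNReal.rpow_one]
  have f2 : m ^ ((p - p0) * (1 / p)) * m ^ (1 / p0 * (p0 * (1 / p))) = m ^ (1 + 1 / p - p0 / p) := by
    rw [← ENNReal.rpow_add_of_nonneg _ _ e1 e3]
    congr 1
    field_simp
    ring
  calc A ^ ((p - p0) * (1 / p)) * m ^ ((p - p0) * (1 / p)) *
        ((C0 : ℝ≥0∞) ^ (p0 * (1 / p)) * (A ^ (p0 * (1 / p)) * m ^ (1 / p0 * (p0 * (1 / p)))))
      = (C0 : ℝ≥0∞) ^ (p0 * (1 / p)) * ((A ^ ((p - p0) * (1 / p)) * A ^ (p0 * (1 / p))) *
        (m ^ ((p - p0) * (1 / p)) * m ^ (1 / p0 * (p0 * (1 / p))))) := by ring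
    _ = _ := by rw [f1, f2, mul_one_div]

/-- the truncations of a function -/
noncomputable def low (f : X → ℂ) (a : ℝ≥0∞) (N : ℕ) : X → ℂ := {x | ‖f x‖ₑ ≤ 2 ^ N * a}.indicator f

/-- the level sets of a function -/
def lev (f : X → ℂ) (a : ℝ≥0∞) (N : ℕ) : Set X := {x | 2 ^ N * a < ‖f x‖ₑ ∧ ‖f x‖ₑ ≤ 2 ^ (N + 1) * a}

theorem low_succ (f : X → ℂ) (a : ℝ≥0∞) (N : ℕ) : low f a (N + 1) = low f a N + (lev f a N).indicator f := by
  funext x
  have hmono : 2 ^ N * a ≤ 2 ^ (N + 1) * a := by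
    gcongr
    · norm_num
    · omega
  by_cases h1 : ‖f x‖ₑ ≤ 2 ^ N * a
  · have h2 : ‖f x‖ₑ ≤ 2 ^ (N + 1) * a := h1.trans hmono
    have h3 : x ∉ lev f a N := fun hx => absurd hx.1 (not_lt.2 h1)
    simp only [low, Pi.add_apply]
    rw [indicator_of_mem (s := {x | ‖f x‖ₑ ≤ 2 ^ (N + 1) * a}) h2, indicator_of_mem (s := {x | ‖f x‖ₑ ≤ 2 ^ N * a}) h1,
      indicator_of_notMem h3, add_zero]
  · simp only [low, Pi.add_apply]
    rw [indicator_of_notMem (s := {x | ‖f x‖ₑ ≤ 2 ^ N * a}) h1, zero_add]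
    by_cases h2 : ‖f x‖ₑ ≤ 2 ^ (N + 1) * a
    · rw [indicator_of_mem (s := {x | ‖f x‖ₑ ≤ 2 ^ (N + 1) * a}) h2,
        indicator_of_mem (s := lev f a N) ⟨not_le.1 h1, h2⟩]
    · rw [indicator_of_notMem (s := {x | ‖f x‖ₑ ≤ 2 ^ (N + 1) * a}) h2,
        indicator_of_notMem (s := lev f a N) (fun hx => h2 hx.2)]

/-- **off-diagonal estimate, real exponents** -/
theorem offdiag_real [IsFiniteMeasure ν] (h : Ker ν μ k) {p0 p q : ℝ} (h0 : 1 ≤ p0) (hp : p0 ≤ p) (hq : 1 ≤ q) {C0 : ℝ≥0}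
    (hD : ∀ f, MemLp f (ENNReal.ofReal p0) ν → eLpNorm (T ν k f) (ENNReal.ofReal p0) μ ≤
      C0 * eLpNorm f (ENNReal.ofReal p0) ν)
    (hpq : 1 < q * (1 + 1 / p - p0 / p)) :
    ∃ C : ℝ≥0, ∀ f, MemLp f (ENNReal.ofReal q) ν →
      eLpNorm (T ν k f) (ENNReal.ofReal p) μ ≤ C * eLpNorm f (ENNReal.ofReal q) ν := by
  have hpp : 0 < p := by linarith
  have hq0 : 0 < q := by linarith
  set θ := 1 + 1 / p - p0 / p with hθ
  have hθ0 : 0 < θ := by
    by_contra hc
    push Not at hc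
    have : q * θ ≤ 0 := mul_nonpos_of_nonneg_of_nonpos hq0.le hc
    linarith
  set C1 : ℝ≥0∞ := (C0 : ℝ≥0∞) ^ (p0 / p) with hC1
  have hC1t : C1 ≠ ∞ := ENNReal.rpow_ne_top_of_nonneg (by positivity) ENNReal.coe_ne_top
  set r : ℝ≥0∞ := (2 : ℝ≥0∞) ^ (1 - q * θ) with hr
  have hr1 : r < 1 := ENNReal.rpow_lt_one_of_one_lt_of_neg (by norm_num) (by linarith)
  set D : ℝ≥0∞ := C1 * (ν univ) ^ θ + C1 * 2 * (1 - r)⁻¹ with hDdef
  have hDt : D ≠ ∞ := by
    have h1 : (1 - r)⁻¹ ≠ ∞ := by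
      rw [Ne, ENNReal.inv_eq_top]
      exact (tsub_pos_of_lt hr1).ne'
    have h2 : (ν univ) ^ θ ≠ ∞ := ENNReal.rpow_ne_top_of_nonneg hθ0.le (measure_ne_top _ _)
    exact ENNReal.add_ne_top.2 ⟨ENNReal.mul_ne_top hC1t h2, ENNReal.mul_ne_top (ENNReal.mul_ne_top hC1t (by norm_num)) h1⟩
  have hp1 : (1 : ℝ≥0∞) ≤ ENNReal.ofReal p := by
    rw [ENNReal.one_le_ofReal]; linarith
  have hq1 : (1 : ℝ≥0∞) ≤ ENNReal.ofReal q := by
    rw [ENNReal.one_le_ofReal]; exact hq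
  have hqn0 : ENNReal.ofReal q ≠ 0 := by simpa using hq0
  -- strongly measurable functions with nonzero norm
  have key : ∀ f : X → ℂ, StronglyMeasurable f → MemLp f (ENNReal.ofReal q) ν →
      eLpNorm f (ENNReal.ofReal q) ν ≠ 0 →
      eLpNorm (T ν k f) (ENNReal.ofReal p) μ ≤ D * eLpNorm f (ENNReal.ofReal q) ν := by
    intro f hfm hf hf0
    set a := eLpNorm f (ENNReal.ofReal q) ν with ha
    have hat : a ≠ ∞ := hf.2.ne
    have hint : Integrable f ν := hf.integrable hq1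
    have hmeas : Measurable fun x => ‖f x‖ₑ := hfm.enorm
    have hlowm : ∀ N, MeasurableSet {x | ‖f x‖ₑ ≤ 2 ^ N * a} := fun N => measurableSet_le hmeas measurable_const
    have hlevm : ∀ N, MeasurableSet (lev f a N) := fun N =>
      (measurableSet_lt measurable_const hmeas).inter (measurableSet_le hmeas measurable_const)
    have hcheb : ∀ N, ν (lev f a N) ≤ ((2 : ℝ≥0∞) ^ N)⁻¹ ^ q := by
      intro N
      have h2a : (2 : ℝ≥0∞) ^ N * a ≠ 0 := mul_ne_zero (by simp) hf0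
      have h1 := meas_ge_le_mul_pow_eLpNorm_enorm ν hqn0 ENNReal.ofReal_ne_top hf.1 h2a
        (fun hc => absurd hc (ENNReal.mul_ne_top (by simp) hat))
      rw [ENNReal.toReal_ofReal hq0.le] at h1
      calc ν (lev f a N) ≤ ν {x | 2 ^ N * a ≤ ‖f x‖ₑ} := measure_mono fun x hx => hx.1.le
        _ ≤ (2 ^ N * a)⁻¹ ^ q * a ^ q := h1
        _ = ((2 : ℝ≥0∞) ^ N)⁻¹ ^ q := by
            rw [← ENNReal.mul_rpow_of_nonneg _ _ hq0.le, ENNReal.mul_inv (Or.inr hat) (Or.inr hf0), mul_assoc,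
              ENNReal.inv_mul_cancel hf0 hat, mul_one]
    have hpiece : ∀ N, eLpNorm (T ν k ((lev f a N).indicator f)) (ENNReal.ofReal p) μ ≤ C1 * 2 * r ^ N * a := by
      intro N
      have h1 := level h h0 hp hD (f := (lev f a N).indicator f) (A := 2 ^ (N + 1) * a)
        (hint.1.indicator (hlevm N)) (ENNReal.mul_ne_top (by simp) hat) (fun x => by
          by_cases hx : x ∈ lev f a N
          · rw [indicator_of_mem hx]; exact hx.2
          · rw [indicator_of_notMem hx]; simp) (hlevm N) (measure_ne_top _ _)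
        (fun x hx => indicator_of_notMem hx _)
      refine h1.trans ?_
      have h2 : ν (lev f a N) ^ θ ≤ (((2 : ℝ≥0∞) ^ N)⁻¹ ^ q) ^ θ := ENNReal.rpow_le_rpow (hcheb N) hθ0.le
      calc C1 * (2 ^ (N + 1) * a * ν (lev f a N) ^ θ) ≤ C1 * (2 ^ (N + 1) * a * (((2 : ℝ≥0∞) ^ N)⁻¹ ^ q) ^ θ) := by gcongr
        _ = C1 * 2 * ((2 : ℝ≥0∞) ^ N * (((2 : ℝ≥0∞) ^ N)⁻¹ ^ q) ^ θ) * a := by rw [pow_succ]; ring
        _ = C1 * 2 * r ^ N * a := by
            congr 2
            rw [← ENNReal.rpow_mul, ENNReal.inv_rpow, ← ENNReal.rpow_natCast, ← ENNReal.rpow_mul, ← ENNReal.rpow_neg,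
              ← ENNReal.rpow_add _ _ (by norm_num) (by norm_num), hr, ← ENNReal.rpow_natCast, ← ENNReal.rpow_mul]
            congr 1
            ring
    have hlowint : ∀ N, Integrable (low f a N) ν := fun N => hint.indicator (hlowm N)
    have hstart : eLpNorm (T ν k (low f a 0)) (ENNReal.ofReal p) μ ≤ C1 * (ν univ) ^ θ * a := by
      have h1 := level h h0 hp hD (f := low f a 0) (A := a) (hlowint 0).1 hat (fun x => by
          unfold low
          by_cases hx : x ∈ {x | ‖f x‖ₑ ≤ 2 ^ 0 * a}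
          · rw [indicator_of_mem hx]
            have : ‖f x‖ₑ ≤ 2 ^ 0 * a := hx
            simpa using this
          · rw [indicator_of_notMem hx]; simp) MeasurableSet.univ (measure_ne_top _ _)
        (fun x hx => absurd (mem_univ x) hx)
      refine h1.trans (le_of_eq ?_)
      ring
    have hsum : ∀ N, eLpNorm (T ν k (low f a N)) (ENNReal.ofReal p) μ ≤
        C1 * (ν univ) ^ θ * a + ∑ j ∈ Finset.range N, C1 * 2 * r ^ j * a := by
      intro N
      induction N with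
      | zero => simpa using hstart
      | succ N ih =>
        have hi : Integrable ((lev f a N).indicator f) ν := hint.indicator (hlevm N)
        rw [low_succ, T_add h (hlowint N) hi, Finset.sum_range_succ, ← add_assoc]
        exact (eLpNorm_add_le (h.out _ (hlowint N)) (h.out _ hi) hp1).trans (add_le_add ih (hpiece N))
    have hbound : ∀ N, eLpNorm (T ν k (low f a N)) (ENNReal.ofReal p) μ ≤ D * a := by
      intro N
      refine (hsum N).trans ?_
      rw [hDdef, add_mul]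
      gcongr
      calc ∑ j ∈ Finset.range N, C1 * 2 * r ^ j * a = C1 * 2 * (∑ j ∈ Finset.range N, r ^ j) * a := by
            rw [Finset.mul_sum, Finset.sum_mul]
        _ ≤ C1 * 2 * (∑' j, r ^ j) * a := by
            gcongr
            exact ENNReal.sum_le_tsum _
        _ = C1 * 2 * (1 - r)⁻¹ * a := by rw [ENNReal.tsum_geometric]
    have hlim : ∀ y, Tendsto (fun N => T ν k (low f a N) y) atTop (𝓝 (T ν k f y)) := by
      intro y
      refine tendsto_integral_of_dominated_convergence (fun x => ‖f x‖) (fun N => ((h.int (hlowint N) y)).1) hint.norm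
        (fun N => Eventually.of_forall fun x => ?_) (Eventually.of_forall fun x => ?_)
      · rw [norm_mul]
        have h1 : ‖low f a N x‖ ≤ ‖f x‖ := by
          unfold low
          exact norm_indicator_le_norm_self _ _
        calc ‖low f a N x‖ * ‖k x y‖ ≤ ‖f x‖ * 1 := mul_le_mul h1 (h.le x y) (norm_nonneg _) (norm_nonneg _)
          _ = ‖f x‖ := mul_one _
      · refine Tendsto.mul_const _ ?_
        refine tendsto_const_nhds.congr' ?_
        have hex : ∃ N0 : ℕ, ‖f x‖ₑ ≤ 2 ^ N0 * a := by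
          obtain ⟨n, hn⟩ := ENNReal.exists_nat_mul_gt hf0 (enorm_ne_top (x := f x))
          refine ⟨n, hn.le.trans ?_⟩
          gcongr
          exact_mod_cast (Nat.lt_two_pow_self (n := n)).le
        obtain ⟨N0, hN0⟩ := hex
        filter_upwards [eventually_ge_atTop N0] with N hN
        have : x ∈ {x | ‖f x‖ₑ ≤ 2 ^ N * a} := by
          refine hN0.trans ?_
          gcongr
          norm_num
        exact (indicator_of_mem this f).symm
    refine (Lp.eLpNorm_lim_le_liminf_eLpNorm (fun N => h.out _ (hlowint N)) _ (Eventually.of_forall hlim)).trans ?_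
    exact (liminf_le_liminf (Eventually.of_forall hbound)).trans (by simp)
  refine ⟨D.toNNReal, fun f hf => ?_⟩
  rw [ENNReal.coe_toNNReal hDt]
  by_cases hz : eLpNorm f (ENNReal.ofReal q) ν = 0
  · have hf0 : f =ᵐ[ν] 0 := (eLpNorm_eq_zero_iff hf.1 hqn0).1 hz
    have hT : T ν k f = 0 := by
      rw [T_congr hf0]
      funext y
      simp [T]
    rw [hT]
    simp
  · set g := hf.1.mk f with hg
    have hfg : f =ᵐ[ν] g := hf.1.ae_eq_mk
    have e := eLpNorm_congr_ae (p := ENNReal.ofReal q) hfg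
    rw [T_congr hfg, e]
    refine key g hf.1.stronglyMeasurable_mk ((memLp_congr_ae hfg).1 hf) ?_
    rwa [← e]

end Vale.Agent.P122.H499
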